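import Vale.Agent.P022.Defs1
import Vale.Agent.P022.H735.GDefs

/-!
# The 2-adic Hecke algebra `𝕋₂(N)` and the notion of occurrence at level `N`
-/

open scoped TensorProduct
open UpperHalfPlane Matrix CongruenceSubgroup

noncomputable section

namespace Vale.Agent.P022

section Tower

/-! ### Inverse limits of the rings `ℤ₂ ⊗ A_k` for a tower of rings `A_{k+1} → A_k` -/

variable (A : ℕ → Type) [∀ k, Ring (A k)] (f : ∀ k, A (k + 1) →+* A k)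

/-- The transition map `ℤ₂ ⊗ A_{k+1} → ℤ₂ ⊗ A_k`. -/
def trans (k : ℕ) : ℤ_[2] ⊗[ℤ] A (k + 1) →ₐ[ℤ_[2]] ℤ_[2] ⊗[ℤ] A k :=
  Algebra.TensorProduct.map (AlgHom.id ℤ_[2] ℤ_[2]) (f k).toIntAlgHom

/-- The inverse limit of the `ℤ₂`-algebras `ℤ₂ ⊗ A_k`, i.e. the algebra of all families `(x_k)`
such that the transition maps send `x_{k+1}` to `x_k`. -/
def limAlg : Subalgebra ℤ_[2] (∀ k : ℕ, ℤ_[2] ⊗[ℤ] A k) :=
  ⨅ k : ℕ, AlgHom.equalizer ((trans A f k).comp (Pi.evalAlgHom ℤ_[2] _ (k + 1)))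
    (Pi.evalAlgHom ℤ_[2] _ k)

@[reducible] def limRing : Ring (limAlg A f) := inferInstance

@[reducible] def limAlgebra : @Algebra ℤ_[2] (limAlg A f) _ (limRing A f).toSemiring :=
  Subalgebra.algebra (limAlg A f)

theorem mem_limAlg {x : ∀ k : ℕ, ℤ_[2] ⊗[ℤ] A k} :
    x ∈ limAlg A f ↔ ∀ k, trans A f k (x (k + 1)) = x k := by
  rw [limAlg, Algebra.mem_iInf]
  rfl

/-- The additive subgroup `2 ^ n (ℤ₂ ⊗ A_k)`. -/
def twoPow (k n : ℕ) : AddSubgroup (ℤ_[2] ⊗[ℤ] A k) := (nsmulAddMonoidHom (2 ^ n)).range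

/-- The inverse limit of the 2-adic topologies of the rings `ℤ₂ ⊗ A_k`, i.e. the coarsest topology
for which all the maps `lim (ℤ₂ ⊗ A_k) → (ℤ₂ ⊗ A_k) / 2 ^ n (ℤ₂ ⊗ A_k)` are continuous, the
targets being discrete. -/
@[reducible] def limTop : TopologicalSpace (limAlg A f) :=
  ⨅ (k : ℕ) (n : ℕ), TopologicalSpace.induced
    (fun x : limAlg A f => (QuotientAddGroup.mk (x.1 k) : (ℤ_[2] ⊗[ℤ] A k) ⧸ twoPow A k n)) ⊥

/-- The element `(1 ⊗ x_k)` of the inverse limit defined by a family `(x_k)`, where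
`A_{k+1} → A_k` sends `x_{k+1}` to `x_k`. -/
def limMk (x : ∀ k, A k) (hx : ∀ k, f k (x (k + 1)) = x k) : limAlg A f :=
  ⟨fun k => 1 ⊗ₜ x k, (mem_limAlg A f).2 fun k => by
    rw [trans, Algebra.TensorProduct.map_tmul, RingHom.toIntAlgHom_apply, hx, map_one]⟩

end Tower

section HeckeAlgebra

/-! ### The Hecke algebras -/

variable (N : ℕ) [NeZero N]

/-- The block diagonal endomorphisms of `M_1 ⊕ ... ⊕ M_k` (`M_i = M_i(Γ₁(N))`); the component with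
index `i < k` acts on `M_{i+1}`. -/
abbrev BigEnd (k : ℕ) : Type := ∀ i : Fin k, Module.End ℂ (MF N (((i : ℕ) : ℤ) + 1))

/-- The Hecke operator `T_ℓ` on `M_1 ⊕ ... ⊕ M_k`, for a prime `ℓ ∤ N`. -/
def opT (k l : ℕ) (hl : l.Prime) (hN : ¬ l ∣ N) : BigEnd N k :=
  fun i => heckeOp N (((i : ℕ) : ℤ) + 1) l hl hN

/-- The operator `ℓ S_ℓ` on `M_1 ⊕ ... ⊕ M_k`: it acts on `M_i` as `ℓ ^ (i - 1) ⟨ℓ⟩`. -/
def opS (k l : ℕ) : BigEnd N k :=
  fun i => ((l : ℂ) ^ (i : ℕ)) • diamond N (((i : ℕ) : ℤ) + 1) l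

/-- The set of all operators `T_ℓ` and `ℓ S_ℓ` on `M_1 ⊕ ... ⊕ M_k`, for the primes `ℓ ∤ 2N`. -/
def heckeGens (k : ℕ) : Set (BigEnd N k) :=
  {x | ∃ (l : ℕ) (hl : l.Prime) (h : ¬ l ∣ 2 * N),
    x = opT N k l hl (fun h' => h (h'.mul_left 2)) ∨ x = opS N k l}

/-- The `ℤ`-algebra `T^{(2)}_{≤k}(N)` generated by the operators `T_ℓ`, `ℓ S_ℓ`, `ℓ ∤ 2N` prime. -/
def heckeAlg (k : ℕ) : Subalgebra ℤ (BigEnd N k) := Algebra.adjoin ℤ (heckeGens N k)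

/-- The underlying type of the ring `T^{(2)}_{≤k}(N)`. -/
def HA (k : ℕ) : Type := heckeAlg N k

instance instRingHA (k : ℕ) : Ring (HA N k) := Subalgebra.toRing (heckeAlg N k)

/-- `T_ℓ` as an element of `T^{(2)}_{≤k}(N)`. -/
def elT (k l : ℕ) (hl : l.Prime) (h : ¬ l ∣ 2 * N) : HA N k :=
  ⟨opT N k l hl (fun h' => h (h'.mul_left 2)), Algebra.subset_adjoin ⟨l, hl, h, Or.inl rfl⟩⟩

/-- `ℓ S_ℓ` as an element of `T^{(2)}_{≤k}(N)`. -/
def elS (k l : ℕ) (hl : l.Prime) (h : ¬ l ∣ 2 * N) : HA N k :=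
  ⟨opS N k l, Algebra.subset_adjoin ⟨l, hl, h, Or.inr rfl⟩⟩

/-- Restriction of block diagonal endomorphisms from `M_1 ⊕ ... ⊕ M_{k+1}` to
`M_1 ⊕ ... ⊕ M_k`. -/
def restrBig (k : ℕ) : BigEnd N (k + 1) →ₐ[ℤ] BigEnd N k where
  toFun x := fun i => x i.castSucc
  map_one' := rfl
  map_mul' _ _ := rfl
  map_zero' := rfl
  map_add' _ _ := rfl
  commutes' _ := rfl

theorem restrBig_mem (k : ℕ) (x : BigEnd N (k + 1)) (hx : x ∈ heckeAlg N (k + 1)) :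
    restrBig N k x ∈ heckeAlg N k := by
  have h : (heckeAlg N (k + 1)).map (restrBig N k) ≤ heckeAlg N k := by
    rw [heckeAlg, AlgHom.map_adjoin, Algebra.adjoin_le_iff]
    rintro _ ⟨y, ⟨l, hl, h, rfl | rfl⟩, rfl⟩
    · exact Algebra.subset_adjoin ⟨l, hl, h, Or.inl rfl⟩
    · exact Algebra.subset_adjoin ⟨l, hl, h, Or.inr rfl⟩
  exact h ⟨x, hx, rfl⟩

/-- The transition map `T^{(2)}_{≤k+1}(N) → T^{(2)}_{≤k}(N)` (restriction of operators). -/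
def restr (k : ℕ) : HA N (k + 1) →+* HA N k where
  toFun x := ⟨restrBig N k x.1, restrBig_mem N k x.1 x.2⟩
  map_one' := rfl
  map_mul' _ _ := rfl
  map_zero' := rfl
  map_add' _ _ := rfl

/-- The 2-adic Hecke algebra `𝕋₂(N) = lim_k ℤ₂ ⊗ T^{(2)}_{≤k}(N)`. -/
def T2 : Type := limAlg (HA N) (restr N)

instance : Ring (T2 N) := limRing (HA N) (restr N)

instance : Algebra ℤ_[2] (T2 N) := limAlgebra (HA N) (restr N)

/-- The topology of `𝕋₂(N)`: the inverse limit of the 2-adic topologies. -/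
instance : TopologicalSpace (T2 N) := limTop (HA N) (restr N)

/-- The element `T_ℓ` of `𝕋₂(N)`. -/
def tT (l : ℕ) (hl : l.Prime) (h : ¬ l ∣ 2 * N) : T2 N :=
  limMk (HA N) (restr N) (fun k => elT N k l hl h) (fun _ => rfl)

/-- The element `ℓ S_ℓ` of `𝕋₂(N)`. -/
def tS (l : ℕ) (hl : l.Prime) (h : ¬ l ∣ 2 * N) : T2 N :=
  limMk (HA N) (restr N) (fun k => elS N k l hl h) (fun _ => rfl)

end HeckeAlgebra

section Occurs

/-! ### Galois representations -/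

/-- `r` is odd: `det r(c) = -1` for a complex conjugation `c`. -/
def IsOdd {E : Type} [Field E] (r : GQ →* GL (Fin 2) E) : Prop :=
  ∃ c, IsConjQ c ∧ (r c : Matrix (Fin 2) (Fin 2) E).det = -1

/-- `r` is absolutely irreducible: over no extension field `F` of `E` there is a line stable
under `r`. -/
def AbsIrred {E : Type} [Field E] (r : GQ →* GL (Fin 2) E) : Prop :=
  ∀ (F : Type) [Field F] (i : E →+* F) (w : Fin 2 → F), w ≠ 0 →
    ∃ σ : GQ, ∀ c : F, ((r σ : Matrix (Fin 2) (Fin 2) E).map i).mulVec w ≠ c • w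

/-- `r` occurs at level `N`: it is unramified at all primes `l ∤ 2N` and there is a continuous
`ℤ₂`-algebra homomorphism `lam` from `𝕋₂(N)` to the ring of integers `{x | ‖x‖ ≤ 1}` of `E` with
`lam(T_l) = tr r(Frob_l)` and `lam(l S_l) = det r(Frob_l)` for all primes `l ∤ 2N`. -/
def Occurs {E : Type} [NormedField E] [NormedAlgebra ℚ_[2] E] (r : GQ →* GL (Fin 2) E)
    (N : ℕ) [NeZero N] : Prop :=
  (∀ l : ℕ, l.Prime → ¬ l ∣ 2 * N → UnramQ r l) ∧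
  ∃ lam : T2 N →+* E, Continuous lam ∧ (∀ x, ‖lam x‖ ≤ 1) ∧
    (∀ c : ℤ_[2], lam (algebraMap ℤ_[2] (T2 N) c) = algebraMap ℚ_[2] E (c : ℚ_[2])) ∧
    ∀ (l : ℕ) (hl : l.Prime) (h : ¬ l ∣ 2 * N) (σ : GQ), IsFrobQ l σ →
      lam (tT N l hl h) = (r σ : Matrix (Fin 2) (Fin 2) E).trace ∧
      lam (tS N l hl h) = (r σ : Matrix (Fin 2) (Fin 2) E).det

end Occurs

end Vale.Agent.P022
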