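import Vale.Agent.P022.Hecke

/-!
# The diamond operators and the Hecke operators as endomorphisms of `M_k(Γ₁(N))`
-/

open scoped ModularForm MatrixGroups Manifold
open UpperHalfPlane Matrix CongruenceSubgroup

noncomputable section

namespace Vale.Agent.P022

theorem isCusp_smul_rat {Γ : Subgroup (GL (Fin 2) ℝ)} [Γ.IsArithmetic] {c : OnePoint ℝ}
    (hc : IsCusp c Γ) (g : GL (Fin 2) ℚ) :
    IsCusp ((g.map (algebraMap ℚ ℝ)) • c) Γ := by
  rw [Subgroup.IsArithmetic.isCusp_iff_isCusp_SL2Z, isCusp_SL2Z_iff] at hc ⊢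
  obtain ⟨q, rfl⟩ := hc
  refine ⟨g • q, ?_⟩
  exact OnePoint.map_smul (algebraMap ℚ ℝ) g q

theorem mapGL_rat (γ : SL(2, ℤ)) :
    (SpecialLinearGroup.mapGL ℝ γ : GL (Fin 2) ℝ) =
      (SpecialLinearGroup.mapGL ℚ γ : GL (Fin 2) ℚ).map (algebraMap ℚ ℝ) := by
  apply Units.ext
  ext i j
  fin_cases i <;> fin_cases j <;> simp

theorem isCusp_smul_int {Γ : Subgroup (GL (Fin 2) ℝ)} [Γ.IsArithmetic] {c : OnePoint ℝ}
    (hc : IsCusp c Γ) (γ : SL(2, ℤ)) :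
    IsCusp ((SpecialLinearGroup.mapGL ℝ γ : GL (Fin 2) ℝ) • c) Γ := by
  rw [mapGL_rat]
  exact isCusp_smul_rat hc _

section

variable {N : ℕ} {k : ℤ}

/-- Two elements of `Γ₀(N)` with lower right entries congruent modulo `N` act in the same way on
forms for `Γ₁(N)`. -/
theorem slash_eq_of_congr {f : ℍ → ℂ} (hf : ∀ g ∈ Gamma1 N, f ∣[k] g = f) {γ γ' : SL(2, ℤ)}
    (h : (N : ℤ) ∣ γ 1 0) (h' : (N : ℤ) ∣ γ' 1 0) (h1 : (N : ℤ) ∣ γ' 1 1 - γ 1 1) :
    f ∣[k] γ' = f ∣[k] γ := by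
  have e : γ' = (γ' * γ⁻¹) * γ := by group
  have hmem : γ' * γ⁻¹ ∈ Gamma1 N := by
    have hd := det_eq γ
    have hd' := det_eq γ'
    have H10 : ((γ 1 0 : ℤ) : ZMod N) = 0 := (ZMod.intCast_zmod_eq_zero_iff_dvd _ _).2 h
    have H10' : ((γ' 1 0 : ℤ) : ZMod N) = 0 := (ZMod.intCast_zmod_eq_zero_iff_dvd _ _).2 h'
    have H11 : ((γ' 1 1 : ℤ) : ZMod N) = ((γ 1 1 : ℤ) : ZMod N) := by
      have := (ZMod.intCast_zmod_eq_zero_iff_dvd _ _).2 h1
      push_cast at this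
      linear_combination this
    have D : ((γ 0 0 : ℤ) : ZMod N) * (γ 1 1 : ℤ) - (γ 0 1 : ℤ) * (γ 1 0 : ℤ) = 1 := by
      exact_mod_cast congrArg (fun x : ℤ => (x : ZMod N)) hd
    have D' : ((γ' 0 0 : ℤ) : ZMod N) * (γ' 1 1 : ℤ) - (γ' 0 1 : ℤ) * (γ' 1 0 : ℤ) = 1 := by
      exact_mod_cast congrArg (fun x : ℤ => (x : ZMod N)) hd'
    rw [Gamma1_mem, Matrix.SpecialLinearGroup.coe_mul, Matrix.SpecialLinearGroup.coe_inv,
      Matrix.adjugate_fin_two]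
    simp only [Matrix.mul_apply, Fin.sum_univ_two, Matrix.of_apply, Matrix.cons_val',
      Matrix.cons_val_zero, Matrix.cons_val_one, Matrix.cons_val_fin_one]
    push_cast
    refine ⟨?_, ?_, ?_⟩
    · rw [H10] at D ⊢
      rw [H10', H11] at D'
      linear_combination D'
    · rw [H10', H11]
      rw [H10] at D
      linear_combination D
    · rw [H10', H10]
      ring
  rw [e, SlashAction.slash_mul, hf _ hmem]

theorem mf_slash {k : ℤ} (f : MF N k) (g : SL(2, ℤ)) (hg : g ∈ Gamma1 N) :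
    (f : ℍ → ℂ) ∣[k] g = f :=
  f.slash_action_eq' _ (Subgroup.mem_map_of_mem _ hg)

theorem gamma1_le {g : SL(2, ℤ)} (hg : g ∈ Gamma1 N) : (N : ℤ) ∣ g 1 0 ∧ (N : ℤ) ∣ g 1 1 - 1 := by
  rw [Gamma1_mem] at hg
  refine ⟨(ZMod.intCast_zmod_eq_zero_iff_dvd _ _).1 hg.2.2,
    (ZMod.intCast_zmod_eq_zero_iff_dvd _ _).1 ?_⟩
  push_cast
  rw [hg.2.1, sub_self]

theorem dvd_mul_10 {γ g : SL(2, ℤ)} (h : (N : ℤ) ∣ γ 1 0) (hg : (N : ℤ) ∣ g 1 0) :
    (N : ℤ) ∣ (γ * g) 1 0 := by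
  rw [Matrix.SpecialLinearGroup.coe_mul]
  simp only [Matrix.mul_apply, Fin.sum_univ_two]
  exact dvd_add (h.mul_right _) (hg.mul_left _)

theorem dvd_mul_11 {γ g : SL(2, ℤ)} {u w : ℤ} (h : (N : ℤ) ∣ γ 1 0) (hu : (N : ℤ) ∣ γ 1 1 - u)
    (hw : (N : ℤ) ∣ g 1 1 - w) : (N : ℤ) ∣ (γ * g) 1 1 - u * w := by
  rw [Matrix.SpecialLinearGroup.coe_mul]
  simp only [Matrix.mul_apply, Fin.sum_univ_two]
  obtain ⟨x, hx⟩ := h
  obtain ⟨y, hy⟩ := hu
  obtain ⟨z, hz⟩ := hw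
  refine ⟨x * g 0 1 + y * g 1 1 + u * z, ?_⟩
  linear_combination g 0 1 * hx + g 1 1 * hy + u * hz

end

section

variable {N : ℕ} [NeZero N] {k : ℤ}

/-- `f ↦ f|γ` for `γ` in `Γ₀(N)`. -/
def slashG0 (γ : SL(2, ℤ)) (hγ : (N : ℤ) ∣ γ 1 0) (f : MF N k) : MF N k where
  toFun := (f : ℍ → ℂ) ∣[k] γ
  slash_action_eq' := by
    rintro _ ⟨g, hg, rfl⟩
    change ((f : ℍ → ℂ) ∣[k] γ) ∣[k] g = (f : ℍ → ℂ) ∣[k] γ
    rw [← SlashAction.slash_mul]
    obtain ⟨h0, h1⟩ := gamma1_le hg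
    refine slash_eq_of_congr (fun g hg => mf_slash f g hg) hγ (dvd_mul_10 hγ h0) ?_
    simpa using dvd_mul_11 (u := γ 1 1) (w := 1) hγ (by simp) h1
  holo' := f.holo'.slash k _
  bdd_at_cusps' {c} hc := by
    intro g hg
    have h1 := f.bdd_at_cusps' (isCusp_smul_int hc γ)
    exact OnePoint.IsBoundedAt.smul_iff.1 h1 g hg

theorem slashG0_coe (γ : SL(2, ℤ)) (hγ : (N : ℤ) ∣ γ 1 0) (f : MF N k) :
    (slashG0 γ hγ f : ℍ → ℂ) = (f : ℍ → ℂ) ∣[k] γ := rfl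

theorem diaMat_dvd (N d : ℕ) : (N : ℤ) ∣ (diaMat N d) 1 0 := by
  by_cases h : Nat.Coprime d N
  · rw [diaMat_10 h]
  · rw [diaMat, dif_neg h]
    simp

/-- The diamond operator `⟨d⟩` on `M_k(Γ₁(N))`, for `d` prime to `N`: `f ↦ f|γ` where `γ` is an
element of `Γ₀(N)` with lower right entry `d`. -/
def diamond (N : ℕ) (k : ℤ) (d : ℕ) [NeZero N] : Module.End ℂ (MF N k) where
  toFun f := slashG0 (diaMat N d) (diaMat_dvd N d) f
  map_add' f g := by
    apply DFunLike.coe_injective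
    change ((f : ℍ → ℂ) + g) ∣[k] (diaMat N d) = _
    rw [SlashAction.add_slash]
    rfl
  map_smul' c f := by
    apply DFunLike.coe_injective
    change (c • (f : ℍ → ℂ)) ∣[k] (diaMat N d) = _
    rw [ModularForm.SL_smul_slash]
    rfl

theorem diamond_coe (d : ℕ) (f : MF N k) :
    (diamond N k d f : ℍ → ℂ) = (f : ℍ → ℂ) ∣[k] (diaMat N d) := rfl

theorem diamond_coe_of {d : ℕ} (hd : Nat.Coprime d N) {γ : SL(2, ℤ)} (hγ : (N : ℤ) ∣ γ 1 0)
    (h1 : (N : ℤ) ∣ γ 1 1 - d) (f : MF N k) :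
    (f : ℍ → ℂ) ∣[k] γ = diamond N k d f := by
  rw [diamond_coe]
  refine slash_eq_of_congr (fun g hg => mf_slash f g hg) (diaMat_dvd N d) hγ ?_
  rwa [diaMat_11 hd]

omit [NeZero N] in
theorem det_hRep_pos {p : ℕ} (hp : p.Prime) (i : Idx p) :
    0 < (((hRep N p hp i).map (algebraMap ℚ ℝ) : GL (Fin 2) ℝ)).det.val := by
  rw [GeneralLinearGroup.val_det_apply, hRep_coe, Matrix.det_fin_two]
  have hp' : (0 : ℝ) < p := by exact_mod_cast hp.pos
  cases i with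
  | none =>
    have h := det_eq (diaMat N p)
    have h' : ((diaMat N p) 0 0 : ℝ) * (diaMat N p) 1 1 - (diaMat N p) 0 1 * (diaMat N p) 1 0 = 1 := by
      exact_mod_cast h
    simp [hMat]
    nlinarith
  | some j =>
    simp [hMat, hp']

/-- The Hecke operator `T_p` on `M_k(Γ₁(N))` for a prime `p ∤ N`. -/
def heckeOp (N : ℕ) (k : ℤ) (p : ℕ) [NeZero N] (hp : p.Prime) (hN : ¬ p ∣ N) : Module.End ℂ (MF N k) where
  toFun f :=
    { toFun := ∑ i, (f : ℍ → ℂ) ∣[k] ((hRep N p hp i).map (algebraMap ℚ ℝ))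
      slash_action_eq' := by
        rintro _ ⟨g, hg, rfl⟩
        obtain ⟨h0, h1⟩ := gamma1_le hg
        refine sum_slash hp hN g h0 fun γ' h2 h3 => ?_
        have h4 : (N : ℤ) ∣ γ' 1 1 - (1 : SL(2, ℤ)) 1 1 := by
          have := dvd_add h3 h1
          simpa using this
        have := slash_eq_of_congr (fun g hg => mf_slash f g hg) (γ := 1) (by simp) h2 h4
        rw [this, SlashAction.slash_one]
      holo' := by
        have h : ∀ i ∈ (Finset.univ : Finset (Idx p)),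
            MDiff ((f : ℍ → ℂ) ∣[k] ((hRep N p hp i).map (algebraMap ℚ ℝ))) :=
          fun i _ => f.holo'.slash k _
        exact MDifferentiable.sum h
      bdd_at_cusps' := by
        intro c hc γ hγ
        rw [IsBoundedAtImInfty, Filter.BoundedAtFilter, SlashAction.sum_slash, Finset.sum_fn]
        refine Asymptotics.IsBigO.fun_sum fun i _ => ?_
        have h1 := f.bdd_at_cusps' (isCusp_smul_rat hc (hRep N p hp i))
        exact OnePoint.IsBoundedAt.smul_iff.1 h1 γ hγ }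
  map_add' f g := by
    apply DFunLike.coe_injective
    change ∑ i, ((f : ℍ → ℂ) + g) ∣[k] ((hRep N p hp i).map (algebraMap ℚ ℝ)) = _
    simp_rw [SlashAction.add_slash]
    rw [Finset.sum_add_distrib]
    rfl
  map_smul' c f := by
    apply DFunLike.coe_injective
    change ∑ i, (c • (f : ℍ → ℂ)) ∣[k] ((hRep N p hp i).map (algebraMap ℚ ℝ)) = _
    have : ∀ i, (c • (f : ℍ → ℂ)) ∣[k] ((hRep N p hp i).map (algebraMap ℚ ℝ)) =
        c • ((f : ℍ → ℂ) ∣[k] ((hRep N p hp i).map (algebraMap ℚ ℝ))) := by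
      intro i
      rw [ModularForm.smul_slash]
      congr 1
      rw [σ, if_pos (det_hRep_pos hp i)]
      rfl
    simp_rw [this]
    rw [← Finset.smul_sum]
    rfl

theorem heckeOp_coe {p : ℕ} (hp : p.Prime) (hN : ¬ p ∣ N) (f : MF N k) :
    (heckeOp N k p hp hN f : ℍ → ℂ) =
      ∑ i, (f : ℍ → ℂ) ∣[k] ((hRep N p hp i).map (algebraMap ℚ ℝ)) := rfl

/-- `T_p` commutes with `⟨d⟩`. -/
theorem heckeOp_diamond {p : ℕ} (hp : p.Prime) (hN : ¬ p ∣ N) {d : ℕ} (hd : Nat.Coprime d N)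
    (f : MF N k) : diamond N k d (heckeOp N k p hp hN f) = heckeOp N k p hp hN (diamond N k d f) := by
  apply DFunLike.coe_injective
  rw [diamond_coe, heckeOp_coe, heckeOp_coe]
  refine sum_slash hp hN _ (diaMat_dvd N d) fun γ' h2 h3 => ?_
  rw [diaMat_11 hd] at h3
  exact diamond_coe_of hd h2 h3 f

theorem diamond_diamond {d e : ℕ} (hd : Nat.Coprime d N) (he : Nat.Coprime e N) (f : MF N k) :
    diamond N k d (diamond N k e f) = diamond N k (e * d) f := by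
  apply DFunLike.coe_injective
  rw [diamond_coe, diamond_coe, ← SlashAction.slash_mul]
  refine diamond_coe_of (Nat.Coprime.mul_left he hd)
    (dvd_mul_10 (diaMat_dvd N e) (diaMat_dvd N d)) ?_ f
  have := dvd_mul_11 (u := e) (w := d) (diaMat_dvd N e) (by rw [diaMat_11 he]; simp)
    (by rw [diaMat_11 hd]; simp)
  push_cast
  exact this

end

end Vale.Agent.P022
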