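import Mathlib

/-! Interface of the P022 development (statements only use Mathlib). -/

namespace Vale.Agent.P022

open NumberField UpperHalfPlane CongruenceSubgroup Matrix.SpecialLinearGroup
open scoped MatrixGroups ModularForm

noncomputable section

/-- Modular forms of weight `k` for `Gamma_1(N)`. -/
abbrev MF (N : ℕ) (k : ℤ) : Type := ModularForm ((Gamma1 N).map (mapGL ℝ)) k

/-- A nonarchimedean absolute value on `ℂ` extending the 2-adic one. -/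
structure TwoAdic (v : AbsoluteValue ℂ ℝ) : Prop where
  nonarch : ∀ x y : ℂ, v (x + y) ≤ max (v x) (v y)
  two : v 2 = 1 / 2

/-- `f` has an expansion in `exp (2 pi i tau / h)` with `v`-bounded coefficients. -/
def QBdd (v : AbsoluteValue ℂ ℝ) (C : ℝ) (f : ℍ → ℂ) : Prop :=
  ∃ (h : ℕ) (c : ℕ → ℂ), 0 < h ∧ (∀ n, v (c n) ≤ C) ∧
    ∀ τ : ℍ, HasSum (fun n : ℕ => c n * Complex.exp (2 * Real.pi * Complex.I * n * τ / h)) (f τ)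

/-- `v`-bounded at all cusps. -/
def VBdd (v : AbsoluteValue ℂ ℝ) (k : ℤ) (f : ℍ → ℂ) : Prop :=
  ∀ γ : SL(2, ℤ), ∃ C : ℝ, QBdd v C (f ∣[k] γ)

/-- `q`-expansion at infinity with coefficients `a`. -/
def HasQ (f : ℍ → ℂ) (a : ℕ → ℂ) : Prop :=
  ∀ τ : ℍ, HasSum (fun n : ℕ => a n * Complex.exp (2 * Real.pi * Complex.I * n * τ)) (f τ)

variable {K : Type} [Field K] [NumberField K]

/-- `w` is trivial and `K` is imaginary quadratic, or `K` is real quadratic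
and `w` is the sign at one real embedding. -/
def IsSign (w : K → ℂ) : Prop :=
  (IsEmpty (K →+* ℝ) ∧ ∀ x, w x = 1) ∨ (∃ σ : K →+* ℝ, ∀ x, w x = if 0 < σ x then 1 else -1)

/-- The principal ideal of `𝓞 K` generated by an integer. -/
abbrev idl (K : Type) [Field K] [NumberField K] (n : ℤ) : Ideal (𝓞 K) := Ideal.span {(n : 𝓞 K)}

/-- Ray class character modulo `M` (of sign type `w` at infinity), extended by zero. -/
structure IsRay (ξ : Ideal (𝓞 K) →*₀ ℂ) (M : ℕ) (w : K → ℂ) : Prop where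
  supp : ∀ I, ξ I ≠ 0 ↔ IsCoprime I (idl K M)
  princ : ∀ α : 𝓞 K, α ≠ 0 → α - 1 ∈ idl K M → ξ (Ideal.span {α}) = w (α : K)

/-- 2-adic Hecke character of tame modulus `N0`. -/
structure IsHecke (v : AbsoluteValue ℂ ℝ) (Ψ : Ideal (𝓞 K) →*₀ ℂ) (N0 : ℕ) (w : K → ℂ) : Prop where
  supp : ∀ I, Ψ I ≠ 0 ↔ IsCoprime I (idl K (2 * N0))
  unit : ∀ I, IsCoprime I (idl K (2 * N0)) → v (Ψ I) = 1
  cont : ∀ m : ℕ, ∃ s : ℕ, ∀ α : 𝓞 K, α ≠ 0 → α - 1 ∈ idl K (2 ^ s * N0) →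
    v (Ψ (Ideal.span {α}) - w (α : K)) ≤ (1 / 2) ^ m

/-- `coef Ψ n = sum of Ψ(I) over ideals of norm n`. -/
def coef (Ψ : Ideal (𝓞 K) →*₀ ℂ) (n : ℕ) : ℂ :=
  ∑ᶠ I ∈ {I : Ideal (𝓞 K) | Ideal.absNorm I = n}, Ψ I

/-- The nebentypus `d ↦ (D/d) ξ((d))` for `d > 0`. -/
def neben (ξ : Ideal (𝓞 K) →*₀ ℂ) (d : ℕ) : ℂ := (jacobiSym (discr K) d : ℂ) * ξ (idl K d)

/-- P4. -/
def P4_statement : Prop :=
  ∀ (K : Type) [Field K] [NumberField K], Module.finrank ℚ K = 2 → ∀ (Ψ : Ideal (𝓞 K) →*₀ ℂ) (l : ℕ),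
    l.Prime → l ≠ 2 → ∀ n : ℕ,
    coef Ψ (n * l) + neben Ψ l * (if l ∣ n then coef Ψ (n / l) else 0) = coef Ψ l * coef Ψ n

/-- P5 (imaginary) and P9 (real): weight one forms. The level is `4 |D| M0^2`. -/
def P5_statement : Prop :=
  ∀ (K : Type) [Field K] [NumberField K], Module.finrank ℚ K = 2 → ∀ (w : K → ℂ), IsSign w →
    ∀ (M0 : ℕ), 0 < M0 → ∀ ξ : Ideal (𝓞 K) →*₀ ℂ, IsRay ξ M0 w →
    ∃ (g : MF (4 * (discr K).natAbs * M0 ^ 2) 1) (a0 : ℂ),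
      HasQ g (fun n => if n = 0 then a0 else coef ξ n) ∧
      (∀ γ ∈ Gamma0 (4 * (discr K).natAbs * M0 ^ 2), ∀ d : ℕ, γ 1 1 = d →
        (g : ℍ → ℂ) ∣[(1 : ℤ)] γ = neben ξ d • (g : ℍ → ℂ)) ∧
      ∀ v : AbsoluteValue ℂ ℝ, (∀ x y : ℂ, v (x + y) ≤ max (v x) (v y)) → VBdd v 1 g

/-- P6: approximation of a 2-adic Hecke character. `N` is any odd multiple of `N0` and of the
odd part of the discriminant. -/
def P6_statement : Prop :=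
  ∀ (v : AbsoluteValue ℂ ℝ), TwoAdic v →
  ∀ (K : Type) [Field K] [NumberField K], Module.finrank ℚ K = 2 → ∀ (w : K → ℂ), IsSign w →
    ∀ (N0 N : ℕ), Odd N → N0 ∣ N → (∀ e : ℤ, Odd e → e ∣ discr K → e ∣ N) →
    ∀ Ψ : Ideal (𝓞 K) →*₀ ℂ, IsHecke v Ψ N0 w → ∀ m : ℕ,
    ∃ (r : ℕ) (c : Fin r → ℂ) (ep : Fin r → (Ideal (𝓞 K) →*₀ ℂ)) (j : Fin r → ℕ) (S : ℕ),
      2 ≤ S ∧ (∀ i, IsRay (ep i) (2 ^ S * N0) w) ∧
      (∀ i, (∀ d : ℕ, Odd d → d ≡ 1 [MOD N] → neben (ep i) d = 1) ∨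
            (∀ d : ℕ, Odd d → d ≡ 1 [MOD N] → neben (ep i) d = ((ZMod.χ₄ (d : ZMod 4) : ℤ) : ℂ))) ∧
      ∀ I : Ideal (𝓞 K), IsCoprime I (idl K (2 * N0)) →
        v (Ψ I - ∑ i, c i * ep i I * (Ideal.absNorm I : ℂ) ^ (j i)) ≤ (1 / 2) ^ m

/-- Artin reciprocity in the form needed (K quadratic or rational): finite abelian `L/K`.
`𝔭` is unramified if all inertia groups above it are trivial. -/
def Unram (K L : Type) [Field K] [NumberField K] [Field L] [NumberField L] [Algebra K L]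
    (𝔭 : Ideal (𝓞 K)) : Prop :=
  ∀ P : Ideal (𝓞 L), P.IsPrime → P.comap (algebraMap (𝓞 K) (𝓞 L)) = 𝔭 →
    ∀ σ : L ≃ₐ[K] L, (∀ x : 𝓞 L, ∀ y : 𝓞 L, (y : L) = σ x → y - x ∈ P) → σ = 1

/-- `σ` is an arithmetic Frobenius of `L/K` at `𝔭`. -/
def IsFrob (K L : Type) [Field K] [NumberField K] [Field L] [NumberField L] [Algebra K L]
    (𝔭 : Ideal (𝓞 K)) (σ : L ≃ₐ[K] L) : Prop :=
  ∃ P : Ideal (𝓞 L), P.IsPrime ∧ P.comap (algebraMap (𝓞 K) (𝓞 L)) = 𝔭 ∧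
    ∀ x : 𝓞 L, ∀ y : 𝓞 L, (y : L) = σ x → y - x ^ (Ideal.absNorm 𝔭) ∈ P

def AR_statement : Prop :=
  ∀ (K L : Type) [Field K] [NumberField K] [Field L] [NumberField L] [Algebra K L],
    IsGalois K L → (∀ σ τ : L ≃ₐ[K] L, σ * τ = τ * σ) → Module.finrank ℚ K ≤ 2 →
    ∃ M : ℕ, 0 < M ∧
      (∀ p : ℕ, p.Prime → p ∣ M → ∃ 𝔭 : Ideal (𝓞 K), 𝔭.IsPrime ∧ (p : 𝓞 K) ∈ 𝔭 ∧ ¬ Unram K L 𝔭) ∧
      ∀ F : Ideal (𝓞 K) → (L ≃ₐ[K] L),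
        (∀ 𝔭 : Ideal (𝓞 K), 𝔭.IsPrime → 𝔭 ≠ ⊥ → Unram K L 𝔭 → IsFrob K L 𝔭 (F 𝔭)) →
        ∀ (A : Type) [CommGroup A] (χ : (L ≃ₐ[K] L) →* A),
        ∀ α : 𝓞 K, α ≠ 0 → α - 1 ∈ idl K M → (∀ σ : K →+* ℝ, 0 < σ α) →
          ((UniqueFactorizationMonoid.normalizedFactors (Ideal.span {α})).map
            (fun 𝔭 => χ (F 𝔭))).prod = 1

end

end Vale.Agent.P022
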