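import Vale.Agent.P022.Iface

/-!
# Hecke operators and diamond operators on `M_k(Γ₁(N))`
-/

open scoped ModularForm MatrixGroups Manifold
open UpperHalfPlane Matrix CongruenceSubgroup

noncomputable section

namespace Vale.Agent.P022

/-- `Γ₁(N)`, as a subgroup of `GL₂(ℝ)`. -/
abbrev G1 (N : ℕ) : Subgroup (GL (Fin 2) ℝ) := (Gamma1 N).map (SpecialLinearGroup.mapGL ℝ)

/-- The rational matrix `[a, b; c, d]`. -/
def rmat (a b c d : ℚ) (h : a * d - b * c ≠ 0) : GL (Fin 2) ℚ :=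
  GeneralLinearGroup.mkOfDetNeZero !![a, b; c, d] (by rwa [Matrix.det_fin_two_of])

theorem rmat_coe (a b c d : ℚ) (h : a * d - b * c ≠ 0) :
    (((rmat a b c d h).map (algebraMap ℚ ℝ) : GL (Fin 2) ℝ) : Matrix (Fin 2) (Fin 2) ℝ) =
      !![(a : ℝ), b; c, d] := by
  ext i j
  fin_cases i <;> fin_cases j <;> simp [rmat]

/-- The element `[a, b; c, d]` of `SL₂(ℤ)`. -/
def sl (a b c d : ℤ) (h : a * d - b * c = 1) : SL(2, ℤ) :=
  ⟨!![a, b; c, d], by rw [Matrix.det_fin_two_of]; exact h⟩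

theorem bezout {N d : ℕ} (h : Nat.Coprime d N) :
    Nat.gcdA d N * d - (-Nat.gcdB d N) * N = 1 := by
  have h1 := Nat.gcd_eq_gcd_ab d N
  rw [Nat.Coprime] at h
  rw [h] at h1
  push_cast at h1
  linarith

/-- The matrix `[x, -y; N, d]` of determinant one, where `d x + N y = 1` (Bezout); it is used only
for `d` prime to `N`. -/
def diaMat (N d : ℕ) : SL(2, ℤ) :=
  if h : Nat.Coprime d N then sl (Nat.gcdA d N) (-Nat.gcdB d N) N d (bezout h) else 1

theorem diaMat_10 {N d : ℕ} (h : Nat.Coprime d N) : (diaMat N d) 1 0 = N := by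
  rw [diaMat, dif_pos h]
  rfl

theorem diaMat_11 {N d : ℕ} (h : Nat.Coprime d N) : (diaMat N d) 1 1 = d := by
  rw [diaMat, dif_pos h]
  rfl

theorem det_eq (g : SL(2, ℤ)) : g 0 0 * g 1 1 - g 0 1 * g 1 0 = 1 := by
  have := g.det_coe
  rwa [Matrix.det_fin_two] at this

/-- The index set of the representatives of the Hecke operator at `p`. -/
abbrev Idx (p : ℕ) := Option (Fin p)

/-- The representatives of the Hecke operator at the prime `p ∤ N`: the matrices `[1, j; 0, p]`,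
`0 ≤ j < p`, and `γ_p [p, 0; 0, 1]` with `γ_p = diaMat N p` in `Γ₀(N)` with lower right entry `p`. -/
def hRep (N p : ℕ) (hp : p.Prime) : Idx p → GL (Fin 2) ℚ
  | none => (SpecialLinearGroup.mapGL ℚ (diaMat N p)) *
      rmat p 0 0 1 (by simpa using hp.ne_zero)
  | some j => rmat 1 j 0 p (by simpa using hp.ne_zero)

/-- The integral entries of the representatives. -/
def hMat (N p : ℕ) : Idx p → Matrix (Fin 2) (Fin 2) ℤ
  | none => !![p * (diaMat N p) 0 0, (diaMat N p) 0 1; p * (diaMat N p) 1 0, (diaMat N p) 1 1]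
  | some j => !![1, (j : ℕ); 0, p]

theorem hRep_coe (N p : ℕ) (hp : p.Prime) (i : Idx p) :
    (((hRep N p hp i).map (algebraMap ℚ ℝ) : GL (Fin 2) ℝ) : Matrix (Fin 2) (Fin 2) ℝ) =
      (hMat N p i).map (Int.cast : ℤ → ℝ) := by
  cases i with
  | none =>
    ext i j
    fin_cases i <;> fin_cases j <;>
      simp [hRep, hMat, rmat, Matrix.mul_apply, Fin.sum_univ_two, mul_comm]
  | some j =>
    ext i j
    fin_cases i <;> fin_cases j <;> simp [hRep, hMat, rmat]

/-- integral matrices of determinant `p` -/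
theorem key1 {p : ℕ} (hp : p.Prime) {a b c d : ℤ} (hdet : a * d - b * c = p)
    (h : ¬ ((p : ℤ) ∣ a ∧ (p : ℤ) ∣ c)) :
    ∃ j : Fin p, ∃ u v : ℤ, b = a * (j : ℕ) + u * p ∧ d = c * (j : ℕ) + v * p := by
  have : Fact p.Prime := ⟨hp⟩
  have hd : ((a : ZMod p)) * d - b * c = 0 := by
    have := congrArg (fun x : ℤ => (x : ZMod p)) hdet
    simpa using this
  have ex : ∃ t : ZMod p, (b : ZMod p) = a * t ∧ (d : ZMod p) = c * t := by
    by_cases h0 : (a : ZMod p) = 0
    · have h1 : (c : ZMod p) ≠ 0 := by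
        intro h1
        exact h ⟨(ZMod.intCast_zmod_eq_zero_iff_dvd a p).1 h0,
          (ZMod.intCast_zmod_eq_zero_iff_dvd c p).1 h1⟩
      refine ⟨d / c, ?_, by field_simp⟩
      rw [h0] at hd ⊢
      have : (b : ZMod p) * c = 0 := by linear_combination -hd
      rcases mul_eq_zero.1 this with h2 | h2
      · rw [h2]; ring
      · exact absurd h2 h1
    · refine ⟨b / a, by field_simp, ?_⟩
      field_simp
      linear_combination hd
  obtain ⟨t, h1, h2⟩ := ex
  refine ⟨⟨t.val, ZMod.val_lt t⟩, ?_⟩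
  have e : ((t.val : ℤ) : ZMod p) = t := by simp
  have h3 : (p : ℤ) ∣ b - a * (t.val : ℤ) := by
    rw [← ZMod.intCast_zmod_eq_zero_iff_dvd]
    push_cast
    rw [h1]
    simp
  have h4 : (p : ℤ) ∣ d - c * (t.val : ℤ) := by
    rw [← ZMod.intCast_zmod_eq_zero_iff_dvd]
    push_cast
    rw [h2]
    simp
  obtain ⟨u, hu⟩ := h3
  obtain ⟨v, hv⟩ := h4
  refine ⟨u, v, ?_, ?_⟩
  · push_cast
    linarith
  · push_cast
    linarith

theorem mat_ext {A B : Matrix (Fin 2) (Fin 2) ℤ} (h00 : A 0 0 = B 0 0) (h01 : A 0 1 = B 0 1)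
    (h10 : A 1 0 = B 1 0) (h11 : A 1 1 = B 1 1) : A = B := by
  ext i j
  fin_cases i <;> fin_cases j <;> assumption

theorem coprime_of_not_dvd {N p : ℕ} (hp : p.Prime) (hN : ¬ p ∣ N) : Nat.Coprime p N :=
  (Nat.Prime.coprime_iff_not_dvd hp).2 hN

/-- The representatives are permuted by right multiplication with elements of `Γ₀(N)`. -/
theorem hMat_perm {N p : ℕ} (hp : p.Prime) (hN : ¬ p ∣ N) (i : Idx p) (γ : SL(2, ℤ))
    (hγ : (N : ℤ) ∣ γ 1 0) :
    ∃ j : Idx p, ∃ γ' : SL(2, ℤ), (N : ℤ) ∣ γ' 1 0 ∧ (N : ℤ) ∣ γ' 1 1 - γ 1 1 ∧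
      hMat N p i * (γ : Matrix (Fin 2) (Fin 2) ℤ) = γ' * hMat N p j := by
  have hcop := coprime_of_not_dvd hp hN
  have hp0 : (p : ℤ) ≠ 0 := by exact_mod_cast hp.ne_zero
  have hgdet := det_eq γ
  -- the integral matrix `β i * γ`
  obtain ⟨a', b', c', d', hM, hdet, hc, hd⟩ : ∃ a' b' c' d' : ℤ,
      hMat N p i * (γ : Matrix (Fin 2) (Fin 2) ℤ) = !![a', b'; c', d'] ∧
        a' * d' - b' * c' = p ∧ (N : ℤ) ∣ c' ∧ (N : ℤ) ∣ d' - p * γ 1 1 := by
    cases i with
    | none =>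
      have hδ := det_eq (diaMat N p)
      refine ⟨p * (diaMat N p) 0 0 * γ 0 0 + (diaMat N p) 0 1 * γ 1 0,
        p * (diaMat N p) 0 0 * γ 0 1 + (diaMat N p) 0 1 * γ 1 1,
        p * (diaMat N p) 1 0 * γ 0 0 + (diaMat N p) 1 1 * γ 1 0,
        p * (diaMat N p) 1 0 * γ 0 1 + (diaMat N p) 1 1 * γ 1 1, ?_, ?_, ?_, ?_⟩
      · apply mat_ext <;> simp [hMat, Matrix.mul_apply, Fin.sum_univ_two]
      · linear_combination (p : ℤ) * (γ 0 0 * γ 1 1 - γ 0 1 * γ 1 0) * hδ + (p : ℤ) * hgdet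
      · rw [diaMat_10 hcop]
        exact dvd_add (((dvd_refl (N : ℤ)).mul_left _).mul_right _) (hγ.mul_left _)
      · rw [diaMat_10 hcop, diaMat_11 hcop]
        refine ⟨p * γ 0 1, by ring⟩
    | some j =>
      refine ⟨γ 0 0 + (j : ℕ) * γ 1 0, γ 0 1 + (j : ℕ) * γ 1 1, p * γ 1 0, p * γ 1 1,
        ?_, by linear_combination (p : ℤ) * hgdet, hγ.mul_left _, by simp⟩
      apply mat_ext <;> simp [hMat, Matrix.mul_apply, Fin.sum_univ_two]
  by_cases hh : (p : ℤ) ∣ a' ∧ (p : ℤ) ∣ c'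
  · obtain ⟨⟨u, hu⟩, ⟨v, hv⟩⟩ := hh
    have e1 : u * d' - b' * v = 1 := by
      apply mul_left_cancel₀ hp0
      rw [hu, hv] at hdet
      linear_combination hdet
    have e2 : (N : ℤ) ∣ v := by
      rw [hv] at hc
      have : IsCoprime (N : ℤ) (p : ℤ) := by
        rw [Nat.isCoprime_iff_coprime]
        exact hcop.symm
      exact this.dvd_of_dvd_mul_left hc
    have hδ := det_eq (diaMat N p)
    have hδ1 := diaMat_10 hcop
    have hδ2 := diaMat_11 hcop
    refine ⟨none, sl u b' v d' e1 * (diaMat N p)⁻¹, ?_, ?_, ?_⟩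
    · rw [Matrix.SpecialLinearGroup.coe_mul, Matrix.SpecialLinearGroup.coe_inv,
        Matrix.adjugate_fin_two]
      simp only [sl, Matrix.mul_apply, Fin.sum_univ_two, Matrix.of_apply, Matrix.cons_val',
        Matrix.cons_val_zero, Matrix.cons_val_one, Matrix.cons_val_fin_one]
      rw [hδ1]
      exact dvd_add (e2.mul_right _) ((dvd_neg.2 dvd_rfl).mul_left _)
    · rw [Matrix.SpecialLinearGroup.coe_mul, Matrix.SpecialLinearGroup.coe_inv,
        Matrix.adjugate_fin_two]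
      simp only [sl, Matrix.mul_apply, Fin.sum_univ_two, Matrix.of_apply, Matrix.cons_val',
        Matrix.cons_val_zero, Matrix.cons_val_one, Matrix.cons_val_fin_one]
      -- v * (-δ01) + d' * δ00 - γ11 ≡ p γ11 δ00 - γ11 = γ11 (p δ00 - 1) ≡ 0
      obtain ⟨w, hw⟩ := hd
      obtain ⟨z, hz⟩ := e2
      have h5 : (p : ℤ) * (diaMat N p) 0 0 = 1 + (diaMat N p) 0 1 * N := by
        rw [hδ1, hδ2] at hδ
        linear_combination hδ
      refine ⟨-z * (diaMat N p) 0 1 + w * (diaMat N p) 0 0 + γ 1 1 * (diaMat N p) 0 1, ?_⟩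
      rw [hz]
      linear_combination (diaMat N p) 0 0 * hw + γ 1 1 * h5
    · rw [hM, Matrix.SpecialLinearGroup.coe_mul, Matrix.SpecialLinearGroup.coe_inv,
        Matrix.adjugate_fin_two]
      have hδ' : (diaMat N p) 0 0 * (diaMat N p) 1 1 - (diaMat N p) 0 1 * (diaMat N p) 1 0 = 1 := hδ
      apply mat_ext <;>
        simp only [sl, hMat, Matrix.mul_apply, Fin.sum_univ_two, Matrix.of_apply, Matrix.cons_val',
          Matrix.cons_val_zero, Matrix.cons_val_one, Matrix.cons_val_fin_one]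
      · linear_combination hu - (p : ℤ) * u * hδ'
      · linear_combination - b' * hδ'
      · linear_combination hv - (p : ℤ) * v * hδ'
      · linear_combination - d' * hδ'
  · obtain ⟨j, u, v, hu, hv⟩ := key1 hp hdet hh
    have e1 : a' * v - u * c' = 1 := by
      apply mul_left_cancel₀ hp0
      rw [hu, hv] at hdet
      linear_combination hdet
    refine ⟨some j, sl a' u c' v e1, ?_, ?_, ?_⟩
    · simpa [sl] using hc
    · have h3 : (N : ℤ) ∣ p * (v - γ 1 1) := by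
        obtain ⟨w, hw⟩ := hd
        obtain ⟨z, hz⟩ := hc
        refine ⟨w - z * (j : ℕ), ?_⟩
        rw [hz] at hv
        linear_combination hw - hv
      have : IsCoprime (N : ℤ) (p : ℤ) := by
        rw [Nat.isCoprime_iff_coprime]
        exact hcop.symm
      simpa [sl] using this.dvd_of_dvd_mul_left h3
    · rw [hM]
      apply mat_ext <;> simp [sl, hMat, Matrix.mul_apply, Fin.sum_univ_two]
      · linear_combination hu
      · linear_combination hv

theorem no_unit {p : ℕ} (hp : p.Prime) (x : ℤ) (h : (1 : ℤ) = x * p) : False := by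
  have h2 : (p : ℤ) ∣ 1 := ⟨x, by rw [h]; ring⟩
  have h3 : p ∣ 1 := by exact_mod_cast h2
  exact hp.one_lt.ne' (Nat.dvd_one.1 h3)

theorem fin_eq {p : ℕ} {i j : Fin p} {b : ℤ} (h : ((i : ℕ) : ℤ) = (j : ℕ) + b * p) : i = j := by
  have h2 : ((i : ℕ) : ℤ) % p = ((j : ℕ) : ℤ) % p := by
    rw [h]; simp
  have h3 : (i : ℕ) % p = (j : ℕ) % p := by exact_mod_cast h2
  rw [Nat.mod_eq_of_lt i.2, Nat.mod_eq_of_lt j.2] at h3
  exact Fin.ext h3

/-- Different representatives lie in different cosets of `SL(2, ℤ)`. -/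
theorem hMat_uniq {N p : ℕ} (hp : p.Prime) (i j : Idx p) (γ : SL(2, ℤ))
    (h : hMat N p i = γ * hMat N p j) : i = j := by
  have hγ := det_eq γ
  have hδ := det_eq (diaMat N p)
  have h00 := congrFun (congrFun h 0) 0
  have h01 := congrFun (congrFun h 0) 1
  have h10 := congrFun (congrFun h 1) 0
  have h11 := congrFun (congrFun h 1) 1
  cases i with
  | none =>
    cases j with
    | none => rfl
    | some j =>
      exfalso
      simp [hMat, Matrix.mul_apply, Fin.sum_univ_two] at h00 h01 h10 h11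
      -- δ01 = γ00 j + γ01 p, with γ00 = p δ00; so p ∣ δ01, and p ∣ δ11; contradiction
      rw [← h00] at h01
      rw [← h10] at h11
      refine no_unit hp ((diaMat N p) 0 0 * ((diaMat N p) 1 0 * (j : ℕ) + γ 1 1)
        - ((diaMat N p) 0 0 * (j : ℕ) + γ 0 1) * (diaMat N p) 1 0) ?_
      linear_combination (-1 : ℤ) * hδ + (diaMat N p) 0 0 * h11 - (diaMat N p) 1 0 * h01
  | some i =>
    cases j with
    | none =>
      exfalso
      simp [hMat, Matrix.mul_apply, Fin.sum_univ_two] at h00 h01 h10 h11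
      refine no_unit hp (γ 0 0 * (diaMat N p) 0 0 + γ 0 1 * (diaMat N p) 1 0) ?_
      linear_combination h00
    | some j =>
      simp [hMat, Matrix.mul_apply, Fin.sum_univ_two] at h00 h01 h10 h11
      rw [← h00, one_mul] at h01
      rw [fin_eq h01]

theorem mapGL_coe (γ : SL(2, ℤ)) : ((SpecialLinearGroup.mapGL ℝ γ : GL (Fin 2) ℝ) :
    Matrix (Fin 2) (Fin 2) ℝ) = (γ : Matrix (Fin 2) (Fin 2) ℤ).map (Int.cast : ℤ → ℝ) := by
  ext i j
  fin_cases i <;> fin_cases j <;> simp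

theorem mat_map_mul (A B : Matrix (Fin 2) (Fin 2) ℤ) :
    (A * B).map (Int.cast : ℤ → ℝ) = A.map (Int.cast : ℤ → ℝ) * B.map (Int.cast : ℤ → ℝ) := by
  have := Matrix.map_mul (L := A) (M := B) (f := Int.castRingHom ℝ)
  simpa using this

theorem gl_eq_of {N p : ℕ} (hp : p.Prime) {i j : Idx p} {γ γ' : SL(2, ℤ)}
    (h : hMat N p i * (γ : Matrix (Fin 2) (Fin 2) ℤ) = γ' * hMat N p j) :
    (hRep N p hp i).map (algebraMap ℚ ℝ) * (SpecialLinearGroup.mapGL ℝ γ) =
      (SpecialLinearGroup.mapGL ℝ γ') * (hRep N p hp j).map (algebraMap ℚ ℝ) := by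
  apply Units.ext
  rw [Units.val_mul, Units.val_mul, hRep_coe, hRep_coe, mapGL_coe, mapGL_coe, ← mat_map_mul, h,
    mat_map_mul]

theorem sl_slash {k : ℤ} (f : ℍ → ℂ) (γ : SL(2, ℤ)) :
    f ∣[k] γ = f ∣[k] (SpecialLinearGroup.mapGL ℝ γ : GL (Fin 2) ℝ) := rfl

/-- The sum of `f` over the representatives, transformed by an element `γ` of `Γ₀(N)`, is the sum
of `g` over the representatives if all elements of `Γ₀(N)` with the same lower right entry modulo
`N` as `γ` map `f` to `g`. -/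
theorem sum_slash {N p : ℕ} (hp : p.Prime) (hN : ¬ p ∣ N) {k : ℤ} {f g : ℍ → ℂ} (γ : SL(2, ℤ))
    (hγ : (N : ℤ) ∣ γ 1 0)
    (hf : ∀ γ' : SL(2, ℤ), (N : ℤ) ∣ γ' 1 0 → (N : ℤ) ∣ γ' 1 1 - γ 1 1 → f ∣[k] γ' = g) :
    (∑ i, f ∣[k] ((hRep N p hp i).map (algebraMap ℚ ℝ))) ∣[k] γ =
      ∑ i, g ∣[k] ((hRep N p hp i).map (algebraMap ℚ ℝ)) := by
  classical
  choose σ γ' h1 h2 h3 using fun i => hMat_perm hp hN i γ hγ
  have e1 : ∀ i, (f ∣[k] ((hRep N p hp i).map (algebraMap ℚ ℝ))) ∣[k] γ =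
      g ∣[k] ((hRep N p hp (σ i)).map (algebraMap ℚ ℝ)) := by
    intro i
    rw [sl_slash, ← SlashAction.slash_mul, gl_eq_of hp (h3 i), SlashAction.slash_mul]
    rw [← hf (γ' i) (h1 i) (h2 i), sl_slash]
  have inj : Function.Injective σ := by
    intro i j h
    refine hMat_uniq (N := N) hp i j (γ' i * (γ' j)⁻¹) ?_
    have e2 := h3 i
    have e3 := h3 j
    rw [h] at e2
    have e4 : hMat N p i = (γ' i : Matrix (Fin 2) (Fin 2) ℤ) * hMat N p (σ j) *
        (γ⁻¹ : SL(2, ℤ)) := by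
      rw [← e2, Matrix.mul_assoc, ← Matrix.SpecialLinearGroup.coe_mul, mul_inv_cancel]
      simp
    have e5 : hMat N p (σ j) = ((γ' j)⁻¹ : SL(2, ℤ)) * (hMat N p j * γ) := by
      rw [e3, ← Matrix.mul_assoc, ← Matrix.SpecialLinearGroup.coe_mul, inv_mul_cancel]
      simp
    rw [e4, e5, Matrix.SpecialLinearGroup.coe_mul]
    simp only [Matrix.mul_assoc]
    rw [← Matrix.SpecialLinearGroup.coe_mul γ γ⁻¹, mul_inv_cancel]
    simp
  have bij : Function.Bijective σ := Finite.injective_iff_bijective.1 inj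
  rw [sl_slash, SlashAction.sum_slash]
  simp_rw [← sl_slash, e1]
  exact (Equiv.ofBijective σ bij).sum_comp
    (fun i => g ∣[k] ((hRep N p hp i).map (algebraMap ℚ ℝ)))

end Vale.Agent.P022
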