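import Vale.Agent.P022.Defs

/-!
# Systems of eigenvalues and characters of the 2-adic Hecke algebra
-/

open UpperHalfPlane Matrix CongruenceSubgroup
open scoped ModularForm MatrixGroups TensorProduct

noncomputable section

namespace Vale.Agent.P022

/-- The index set of the generators `T_l` (`false`) and `l S_l` (`true`), `l ∤ 2N` prime. -/
abbrev Gen (N : ℕ) : Type := {l : ℕ // l.Prime ∧ ¬ l ∣ 2 * N} × Bool

/-- The operator of a generator on `M_1 ⊕ ... ⊕ M_k`. -/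
def opGen (N : ℕ) [NeZero N] (k : ℕ) (x : Gen N) : BigEnd N k :=
  if x.2 = true then opS N k x.1 else opT N k x.1 x.1.2.1 (fun h => x.1.2.2 (h.mul_left 2))

/-- The value of a generator for a system of eigenvalues `t, d`. -/
def valGen (N : ℕ) {R : Type} [CommRing R] (t d : ℕ → R) (x : Gen N) : R :=
  if x.2 = true then d x.1 else t x.1

/-- Evaluation of noncommutative polynomials at the operators on `M_1 ⊕ ... ⊕ M_k`. -/
def opsHom (N : ℕ) [NeZero N] (k : ℕ) : FreeAlgebra ℤ (Gen N) →ₐ[ℤ] BigEnd N k :=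
  FreeAlgebra.lift ℤ (opGen N k)

/-- Evaluation of noncommutative polynomials at the system of eigenvalues `t, d`. -/
def evHom (N : ℕ) {R : Type} [CommRing R] (t d : ℕ → R) : FreeAlgebra ℤ (Gen N) →ₐ[ℤ] R :=
  FreeAlgebra.lift ℤ (valGen N t d)

/-- The system `T_l ↦ t l`, `l S_l ↦ d l` is a 2-adic limit of the Hecke algebras of level `N`. -/
def SysOK (v : AbsoluteValue ℂ ℝ) (N : ℕ) [NeZero N] (t d : ℕ → ℂ) : Prop :=
  ∀ m : ℕ, ∃ k : ℕ, ∀ P : FreeAlgebra ℤ (Gen N), opsHom N k P = 0 →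
    v (evHom N t d P) ≤ (1 / 2) ^ m

/-- Q1: the action of `T_l` on `q`-expansions. -/
def Q1_statement : Prop :=
  ∀ (N : ℕ) [NeZero N] (k : ℤ) (l : ℕ) (hl : l.Prime) (hN : ¬ l ∣ N) (f : MF N k) (a a' : ℕ → ℂ),
    HasQ f a → HasQ (diamond N k l f) a' →
    HasQ (heckeOp N k l hl hN f)
      (fun n => a (n * l) + (l : ℂ) ^ (k - 1) * (if l ∣ n then a' (n / l) else 0))

/-- Q2: existence and uniqueness of `q`-expansions. -/
def Q2_statement : Prop :=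
  (∀ (N : ℕ) [NeZero N] (k : ℤ) (f : MF N k), ∃ a : ℕ → ℂ, HasQ f a) ∧
  ∀ (f : ℍ → ℂ) (a b : ℕ → ℂ), HasQ f a → HasQ f b → a = b

/-- Q3 (criterion). `D` is the multiplicative extension of `d` to the numbers prime to `2N`. -/
def Q3_statement : Prop :=
  ∀ (v : AbsoluteValue ℂ ℝ), TwoAdic v → ∀ (N : ℕ) [NeZero N] (m k : ℕ)
    (G : ∀ i : Fin k, MF N (((i : ℕ) : ℤ) + 1)) (c t d D : ℕ → ℂ),
    D 1 = 1 → c 1 = 1 → (∀ n, v (c n) ≤ 1) → (∀ u, v (D u) ≤ 1) →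
    (∀ l : ℕ, l.Prime → ¬ l ∣ 2 * N → v (t l) ≤ 1 ∧ v (d l) ≤ 1 ∧
      (∀ u : ℕ, u.Coprime (2 * N) → D (u * l) = D u * d l) ∧
      ∀ n : ℕ, 0 < n → c (n * l) + d l * (if l ∣ n then c (n / l) else 0) = t l * c n) →
    (∀ u : ℕ, u.Coprime (2 * N) → ∃ b : ℕ → ℂ,
      HasQ (∑ i : Fin k, (u : ℂ) ^ (i : ℕ) • (diamond N (((i : ℕ) : ℤ) + 1) u (G i) : ℍ → ℂ)) b ∧
      ∀ n : ℕ, 0 < n → v (b n - D u * c n) ≤ (1 / 2) ^ m) →
    ∀ P : FreeAlgebra ℤ (Gen N), opsHom N k P = 0 → v (evHom N t d P) ≤ (1 / 2) ^ m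

/-- Main theorem on limits: `SysOK` gives a character of `𝕋₂(N)` with values in `E`. -/
def Main_statement : Prop :=
  ∀ (v : AbsoluteValue ℂ ℝ) (E : Type) [NormedField E] [NormedAlgebra ℚ_[2] E]
    [CompleteSpace E] (i : E →+* ℂ), (∀ x, v (i x) = ‖x‖) → ∀ (N : ℕ) [NeZero N] (t d : ℕ → E),
    (∀ l : ℕ, l.Prime → ¬ l ∣ 2 * N → ‖t l‖ ≤ 1 ∧ ‖d l‖ ≤ 1) →
    SysOK v N (fun l => i (t l)) (fun l => i (d l)) →
    ∃ lam : T2 N →+* E, Continuous lam ∧ (∀ x, ‖lam x‖ ≤ 1) ∧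
      (∀ c : ℤ_[2], lam (algebraMap ℤ_[2] (T2 N) c) = algebraMap ℚ_[2] E (c : ℚ_[2])) ∧
      ∀ (l : ℕ) (hl : l.Prime) (h : ¬ l ∣ 2 * N),
        lam (tT N l hl h) = t l ∧ lam (tS N l hl h) = d l

end Vale.Agent.P022
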